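import Vale.Agent.P011U.IF3

/-!
The arithmetic step of the linear algebra of type `D` of odd rank.
-/

set_option autoImplicit false
set_option linter.all false

namespace Vale.Agent.P011UD5

open Vale.Agent.P011L Vale.Agent.P011U

/-- In rank at least three every `l` which is positive at the real places where the plane of `a` is
not hyperbolic is, up to a square, the spinor norm of a rotation in a plane. -/
def ST3 : Prop := ∀ (k L V : Type) [Field k] [Field L] [Algebra k L] [AddCommGroup V] [Module L V]
  [FiniteDimensional L V] (S : QJ k L V), Glob k → NoR L → 6 ≤ Module.finrank L V →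
  ∀ (a : V) (l : k), l ≠ 0 →
    (∀ φ : k →+* ℝ, 0 < φ l ∨ ∃ e : k, algebraMap k L e = S.dl a ∧ φ e < 0) →
    ∃ (v : V) (c : L) (κ : k), κ ≠ 0 ∧ S.dl v ≠ 0 ∧ c ≠ S.σ c ∧
      c + S.σ c = QuadraticMap.polar S.q v (S.J v) ∧
      (c - S.σ c) ^ 2 = algebraMap k L (κ ^ 2 * l) *
        (algebraMap k L S.b * (S.q v * S.σ (S.q v)) - c * S.σ c)

end Vale.Agent.P011UD5
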