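import Vale.Agent.P011UD5.Defs
import Mathlib.LinearAlgebra.BilinearForm.Orthogonal
import Mathlib.LinearAlgebra.Matrix.Determinant.Basic
import Mathlib.FieldTheory.Fixed
import Mathlib.Analysis.Complex.Polynomial.Basic

/-!
Quadratic spaces with a semilinear similitude: the basic calculus.
-/

set_option autoImplicit false
set_option linter.all false

namespace Vale.Agent.P011UD5

open Vale.Agent.P011L Vale.Agent.P011U QuadraticMap Module

variable {k L V : Type} [Field k] [Field L] [Algebra k L] [AddCommGroup V] [Module L V]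
  (S : QJ k L V)

/-- the scalar `b` in `L` -/
def bb : L := algebraMap k L S.b

/-- the hermitian value of `v` -/
def be (v : V) : L := polar S.q v (S.J v)

include S in
theorem fd : FiniteDimensional k L := FiniteDimensional.of_finrank_eq_succ S.two

theorem fix {t : L} (h : S.σ t = t) : ∃ c, algebraMap k L c = t := by
  rcases (Subalgebra.isSimpleOrder_of_finrank S.two).eq_bot_or_eq_top
    (AlgHom.equalizer (S.σ : L →ₐ[k] L) (AlgHom.id k L)) with e | e
  · have : t ∈ AlgHom.equalizer (S.σ : L →ₐ[k] L) (AlgHom.id k L) := h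
    rw [e, Algebra.mem_bot] at this
    exact this
  · refine absurd (AlgEquiv.ext fun x => ?_) S.ne
    have : x ∈ AlgHom.equalizer (S.σ : L →ₐ[k] L) (AlgHom.id k L) := e ▸ Algebra.mem_top
    exact this

@[simp] theorem ss (t : L) : S.σ (S.σ t) = t := by
  classical
  haveI := fd S
  have h : Fintype.card (L ≃ₐ[k] L) ≤ 2 := S.two ▸ AlgEquiv.card_le
  haveI : Nontrivial (L ≃ₐ[k] L) := ⟨_, _, S.ne⟩
  have h1 := Fintype.one_lt_card (α := L ≃ₐ[k] L)
  have h2 : S.σ ^ Fintype.card (L ≃ₐ[k] L) = 1 := pow_card_eq_one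
  rw [show Fintype.card (L ≃ₐ[k] L) = 2 by omega, pow_two] at h2
  exact DFunLike.congr_fun h2 t

theorem ex_mv : ∃ t, S.σ t ≠ t := by
  by_contra h
  push Not at h
  exact S.ne (AlgEquiv.ext h)

@[simp] theorem s_bb : S.σ (bb S) = bb S := S.σ.commutes _

theorem bb_ne : bb S ≠ 0 := fun h => S.div 0 (by rw [zero_mul]; exact h.symm)

theorem JJ (v : V) : S.J (S.J v) = bb S • v := S.sq v

theorem qJ (v : V) : S.q (S.J v) = bb S * S.σ (S.q v) := S.sim v

theorem B_JJ (x y : V) : polar S.q (S.J x) (S.J y) = bb S * S.σ (polar S.q x y) := by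
  simp only [polar, ← map_add S.J, qJ, map_sub]
  ring

theorem B_Jl (x y : V) : polar S.q (S.J x) y = S.σ (polar S.q x (S.J y)) := by
  apply mul_left_cancel₀ (bb_ne S)
  rw [← B_JJ, JJ, polar_smul_right, smul_eq_mul]

theorem B_Jr (x y : V) : polar S.q x (S.J y) = S.σ (polar S.q (S.J x) y) := by
  rw [B_Jl, ss]

@[simp] theorem s_be (v : V) : S.σ (be S v) = be S v := by
  rw [be, ← B_Jl, polar_comm]

theorem B_self (v : V) : polar S.q v v = 2 * S.q v := by
  rw [polar_self, two_smul, two_mul]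

theorem dl_eq (v : V) : S.dl v = be S v ^ 2 - 4 * (bb S * (S.q v * S.σ (S.q v))) := by
  rw [QJ.dl, qJ, be]
  ring

@[simp] theorem s_dl (v : V) : S.σ (S.dl v) = S.dl v := by
  rw [dl_eq]
  simp only [map_sub, map_pow, map_mul, s_be, s_bb, ss, map_ofNat]
  ring

theorem nrd_zero {a c : L} (h : bb S * (a * S.σ a) - c * S.σ c = 0) : a = 0 ∧ c = 0 := by
  have ha : a = 0 := by
    by_contra ha
    have ha' : S.σ a ≠ 0 := by simpa using ha
    refine S.div (c / a) ?_
    rw [map_div₀, ← bb]
    field_simp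
    linear_combination -h
  refine ⟨ha, ?_⟩
  rw [ha, zero_mul, mul_zero, zero_sub, neg_eq_zero, mul_eq_zero] at h
  simpa using h

theorem dl_zero {v : V} (h : S.dl v = 0) : be S v = 0 ∧ 2 * S.q v = 0 := by
  refine (nrd_zero S (a := 2 * S.q v) (c := be S v) ?_).symm
  rw [dl_eq] at h
  simp only [map_mul, map_ofNat, s_be]
  linear_combination -h

theorem dl_ne {v : V} (h : be S v ≠ 0) : S.dl v ≠ 0 := fun e => h (dl_zero S e).1

theorem be_add (x y : V) : be S (x + y) =
    be S x + be S y + polar S.q x (S.J y) + S.σ (polar S.q x (S.J y)) := by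
  rw [← B_Jl, polar_comm _ (S.J x)]
  simp only [be, map_add, polar_add_left, polar_add_right]
  ring

theorem be_smul (t : L) (x : V) : be S (t • x) = t * S.σ t * be S x := by
  simp only [be, S.smul, polar_smul_left, polar_smul_right, smul_eq_mul]
  ring

theorem be_neg (x : V) : be S (-x) = be S x := by
  simp only [be, map_neg, polar_neg_left, polar_neg_right, neg_neg]

theorem be_sub (x y : V) : be S (x - y) =
    be S x + be S y - polar S.q x (S.J y) - S.σ (polar S.q x (S.J y)) := by
  rw [sub_eq_add_neg, be_add, be_neg, map_neg, polar_neg_right, map_neg]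
  ring

/-- subspaces which are stable under `J` -/
def St (W : Submodule L V) : Prop := ∀ v ∈ W, S.J v ∈ W

theorem ex_be {W : Submodule L V} (hW : St S W) {x y : V} (hx : x ∈ W) (hy : y ∈ W)
    (h : polar S.q x y ≠ 0) : ∃ v ∈ W, be S v ≠ 0 := by
  by_contra hn
  push Not at hn
  have e : ∀ x ∈ W, ∀ y ∈ W, polar S.q x (S.J y) + S.σ (polar S.q x (S.J y)) = 0 :=
    fun x hx y hy => by
      have := be_add S x y
      rw [hn _ (add_mem hx hy), hn _ hx, hn _ hy] at this
      linear_combination -this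
  obtain ⟨t, ht⟩ := ex_mv S
  have e1 := e x hx _ (hW y hy)
  have e2 := e _ (W.smul_mem t hx) _ (hW y hy)
  rw [polar_smul_left, smul_eq_mul, map_mul] at e2
  have e3 : (t - S.σ t) * polar S.q x (S.J (S.J y)) = 0 := by
    linear_combination e2 - S.σ t * e1
  rw [JJ, polar_smul_right, smul_eq_mul] at e3
  exact mul_ne_zero (sub_ne_zero.2 ht.symm) (mul_ne_zero (bb_ne S) h) e3

theorem or_symm {x v : V} (h : S.Or x v) : S.Or v x :=
  ⟨by rw [polar_comm]; exact h.1, by rw [B_Jl, polar_comm, h.2, map_zero]⟩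

/-- the two coordinates along the plane of `x` -/
def co (x : V) : V →ₗ[L] L × L := (S.q.polarBilin x).prod (S.q.polarBilin (S.J x))

/-- the orthogonal complement of the plane of `x` -/
def Pp (x : V) : Submodule L V := LinearMap.ker (co S x)

theorem mem_Pp {x v : V} : v ∈ Pp S x ↔ S.Or x v := by
  simp [Pp, co, QJ.Or]

theorem or_J {x v : V} (h : S.Or x v) : S.Or x (S.J v) :=
  ⟨by rw [B_Jr, h.2, map_zero], by rw [B_JJ, h.1, map_zero, mul_zero]⟩

theorem st_Pp (x : V) : St S (Pp S x) := fun _ h => (mem_Pp S).2 (or_J S ((mem_Pp S).1 h))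

theorem rk_Pp {U : Type} [AddCommGroup U] [Module L U] [FiniteDimensional L U] (f : U →ₗ[L] V)
    (x : V) : finrank L U ≤ finrank L ((Pp S x).comap f) + 2 := by
  have h := LinearMap.finrank_range_add_finrank_ker ((co S x).comp f)
  have h2 := Submodule.finrank_le (LinearMap.range ((co S x).comp f))
  rw [finrank_prod, finrank_self] at h2
  rw [LinearMap.ker_comp] at h
  unfold Pp
  omega

/-- the multiple `dl x` of the projection along the plane of `x` -/
def pr (x v : V) : V := S.dl x • v -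
  (be S x * polar S.q (S.J x) v - 2 * S.q (S.J x) * polar S.q x v) • x -
  (be S x * polar S.q x v - 2 * S.q x * polar S.q (S.J x) v) • S.J x

theorem or_pr (x v : V) : S.Or x (pr S x v) := by
  constructor
  · simp only [pr, polar_sub_right, polar_smul_right, smul_eq_mul, B_self, QJ.dl, be]
    ring
  · simp only [pr, polar_sub_right, polar_smul_right, smul_eq_mul, B_self, QJ.dl, be,
      polar_comm _ (S.J x) x]
    ring

theorem pr_or {x v : V} (h : S.Or x v) : pr S x v = S.dl x • v := by
  simp [pr, h.1, h.2]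

theorem B_pr {x u : V} (h : S.Or x u) (v : V) :
    polar S.q u (pr S x v) = S.dl x * polar S.q u v := by
  have h' := or_J S (or_symm S h)
  simp only [pr, polar_sub_right, polar_smul_right, smul_eq_mul, (or_symm S h).1, h'.1]
  ring

/-- the restriction to the orthogonal complement of a nondegenerate plane -/
def res {x : V} (h : S.dl x ≠ 0) : QJ k L (Pp S x) where
  σ := S.σ
  b := S.b
  q := S.q.comp (Pp S x).subtype
  J := (S.J.comp (Pp S x).subtype.toAddMonoidHom).codRestrict (Pp S x) fun v => st_Pp S x _ v.2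
  two := S.two
  ne := S.ne
  smul t v := Subtype.ext (S.smul t v)
  sq v := Subtype.ext (S.sq v)
  sim v := S.sim v
  nd v hv := Subtype.ext (S.nd v fun w => by
    have := hv ⟨pr S x w, (mem_Pp S).2 (or_pr S x w)⟩
    change polar S.q v (pr S x w) = 0 at this
    rw [B_pr S ((mem_Pp S).1 v.2)] at this
    exact (mul_eq_zero.1 this).resolve_left h)
  div := S.div

theorem res_be {x : V} (h : S.dl x ≠ 0) (v : Pp S x) : be (res S h) v = be S v := rfl

theorem res_dl {x : V} (h : S.dl x ≠ 0) (v : Pp S x) : (res S h).dl v = S.dl v := rfl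

theorem res_or {x : V} (h : S.dl x ≠ 0) (u v : Pp S x) : (res S h).Or u v ↔ S.Or u v := Iff.rfl

theorem nondeg : LinearMap.BilinForm.Nondegenerate S.q.polarBilin :=
  ⟨fun x h => S.nd x h, fun x h => S.nd x fun y => by rw [polar_comm]; exact h y⟩

variable [FiniteDimensional L V]

theorem rk_res (x : V) : finrank L V ≤ finrank L (Pp S x) + 2 := rk_Pp S LinearMap.id x

theorem ex_big {W : Submodule L V} (hW : St S W) (h : finrank L V < 2 * finrank L W) :
    ∃ v ∈ W, be S v ≠ 0 := by
  by_contra hn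
  have e : W ≤ LinearMap.BilinForm.orthogonal S.q.polarBilin W := fun y hy x hx => by
    by_contra h
    exact hn (ex_be S hW hx hy h)
  have h1 := Submodule.finrank_mono e
  rw [LinearMap.BilinForm.finrank_orthogonal (nondeg S)] at h1
  omega

theorem ex_one (h : 0 < finrank L V) : ∃ v, be S v ≠ 0 := by
  obtain ⟨v, -, hv⟩ := ex_big S (W := ⊤) (fun _ _ => trivial) (by rw [finrank_top]; omega)
  exact ⟨v, hv⟩

theorem ex_perp (h : 4 < finrank L V) (w : V) : ∃ z, be S z ≠ 0 ∧ S.Or w z := by
  obtain ⟨v, h1, hv⟩ := ex_big S (st_Pp S w) (by have := rk_res S w; omega)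
  exact ⟨v, hv, (mem_Pp S).1 h1⟩

theorem or_of_pr {x w z : V} (hx : S.dl x ≠ 0) (h : S.Or x z) (h' : S.Or (pr S x w) z) :
    S.Or w z := by
  have a := (or_symm S h').1
  have b := (or_symm S h').2
  rw [B_pr S h] at a
  rw [B_pr S (or_J S h)] at b
  exact or_symm S ⟨(mul_eq_zero.1 a).resolve_left hx, (mul_eq_zero.1 b).resolve_left hx⟩

theorem ex_perp2 (h : 6 < finrank L V) {x : V} (hx : S.dl x ≠ 0) (w : V) :
    ∃ z, be S z ≠ 0 ∧ S.Or x z ∧ S.Or w z := by
  obtain ⟨z, h1, h2⟩ := ex_perp (res S hx) (by have := rk_res S x; omega)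
    ⟨pr S x w, (mem_Pp S).2 (or_pr S x w)⟩
  exact ⟨z, h1, (mem_Pp S).1 z.2, or_of_pr S hx ((mem_Pp S).1 z.2) h2⟩

theorem ex_perp3 (h : 8 < finrank L V) {x a : V} (hx : S.dl x ≠ 0) (ha : S.dl a ≠ 0)
    (o : S.Or x a) (w : V) : ∃ z, be S z ≠ 0 ∧ S.Or x z ∧ S.Or a z ∧ S.Or w z := by
  obtain ⟨z, h1, h2, h3⟩ := ex_perp2 (res S hx) (by have := rk_res S x; omega)
    (x := ⟨a, (mem_Pp S).2 o⟩) ha ⟨pr S x w, (mem_Pp S).2 (or_pr S x w)⟩
  exact ⟨z, h1, (mem_Pp S).1 z.2, h2, or_of_pr S hx ((mem_Pp S).1 z.2) h3⟩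

theorem even_st {W : Submodule L V} (hW : St S W) : Even (finrank L W) := by
  classical
  by_contra ho
  obtain ⟨n, hn⟩ := Nat.not_even_iff_odd.1 ho
  let e := Module.finBasisOfFinrankEq L W hn
  let j : W →+ W := (S.J.comp W.subtype.toAddMonoidHom).codRestrict W fun v => hW _ v.2
  have js : ∀ (t : L) v, j (t • v) = S.σ t • j v := fun t v => Subtype.ext (S.smul t v)
  have jj : ∀ v, j (j v) = bb S • v := fun v => Subtype.ext (S.sq v)
  let A : Matrix _ _ L := Matrix.of fun i l => e.repr (j (e l)) i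
  have hA : A * A.map S.σ = bb S • (1 : Matrix _ _ L) := by
    ext i l
    have h1 := jj (e l)
    rw [← e.sum_repr (j (e l)), map_sum] at h1
    have h2 := congrArg (fun v => e.repr v i) h1
    simp only [js, map_sum, map_smul, Finsupp.coe_finset_sum, Finset.sum_apply, Finsupp.coe_smul,
      Pi.smul_apply, smul_eq_mul, Basis.repr_self, Finsupp.single_apply] at h2
    rw [Matrix.mul_apply, Matrix.smul_apply, Matrix.one_apply, smul_eq_mul]
    refine Eq.trans ?_ (h2.trans (by simp only [eq_comm]))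
    exact Finset.sum_congr rfl fun x _ => mul_comm _ _
  have hd := congrArg Matrix.det hA
  rw [Matrix.det_mul, Matrix.det_smul, Matrix.det_one, mul_one, Fintype.card_fin,
    show A.map S.σ = (S.σ : L →+* L).mapMatrix A from rfl, ← RingHom.map_det] at hd
  refine S.div (A.det / bb S ^ n) ?_
  have := bb_ne S
  rw [map_div₀, map_pow, s_bb, ← bb]
  field_simp
  change A.det * S.σ A.det = _ at hd
  rw [hd]
  ring

/-- complex embeddings of `L` over a real embedding of `k` -/
def Tu (φ : k →+* ℝ) (τ : L →+* ℂ) : Prop :=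
  (∀ c, τ (algebraMap k L c) = φ c) ∧ ∀ t, τ (S.σ t) = (starRingEnd ℂ) (τ t)

omit [FiniteDimensional L V] in
theorem ex_tu (h : NoR L) (φ : k →+* ℝ) : ∃ τ, Tu S φ τ := by
  haveI := fd S
  letI : Algebra k ℂ := (Complex.ofRealHom.comp φ).toAlgebra
  let τ : L →ₐ[k] ℂ := IsAlgClosed.lift
  have h1 : ∀ c, τ (algebraMap k L c) = φ c := fun c => τ.commutes c
  have h2 : ∀ t, S.σ t = t → (τ t).im = 0 := fun t ht => by
    obtain ⟨c, rfl⟩ := fix S ht
    rw [h1, Complex.ofReal_im]
  have h3 : ∀ t, (τ t).im ≠ 0 → τ (S.σ t) = (starRingEnd ℂ) (τ t) := fun t ht => by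
    have a := h2 (t + S.σ t) (by rw [map_add, ss, add_comm])
    have b := h2 (t * S.σ t) (by rw [map_mul, ss, mul_comm])
    rw [map_add, Complex.add_im] at a
    rw [map_mul, Complex.mul_im] at b
    refine Complex.ext ?_ (by rw [Complex.conj_im]; linarith)
    rw [Complex.conj_re]
    apply mul_left_cancel₀ ht
    linear_combination b - (τ t).re * a
  obtain ⟨t0, h0⟩ : ∃ t, (τ t).im ≠ 0 := by
    by_contra hn
    push Not at hn
    exact h.elim
      { toFun := fun t => (τ t).re
        map_one' := by simp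
        map_mul' := fun x y => by simp [hn]
        map_zero' := by simp
        map_add' := fun x y => by simp }
  refine ⟨τ, h1, fun t => ?_⟩
  by_cases ht : (τ t).im = 0
  · have a := h3 (t + t0) (by rwa [map_add, Complex.add_im, ht, zero_add])
    rw [map_add, map_add, map_add, map_add, h3 t0 h0] at a
    exact add_right_cancel a
  · exact h3 t ht

end Vale.Agent.P011UD5
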