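import Vale.Agent.P011UD5.Pick

/-!
The kernel of the spinor norm is generated by the stabilisers of nondegenerate planes.
-/

set_option autoImplicit false
set_option linter.all false

namespace Vale.Agent.P011UD5

open Vale.Agent.P011L Vale.Agent.P011U QuadraticMap Module

variable {k L V : Type} [Field k] [Field L] [Algebra k L] [AddCommGroup V] [Module L V]
  {S : QJ k L V} {Γ : Type} [Group Γ] {r : Γ →* (V ≃ₗ[L] V)} {s : Γ →* kˣ}

theorem inv_fix {g : Γ} {x y : V} (h : r g x = y) : r g⁻¹ y = x := by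
  rw [← h, ← LinearEquiv.mul_apply, ← map_mul, inv_mul_cancel, map_one]
  rfl

theorem mul_ap (g h : Γ) (x : V) : r (g * h) x = r g (r h x) := by
  rw [map_mul]
  rfl

variable [FiniteDimensional L V]

theorem ex_fix {m : ℕ} (hm : Odd m) (hV : finrank L V = 2 * m) {u : V ≃ₗ[L] V} (hu : S.Is u)
    (h : ∀ v, be S (v - u v) = 0) : ∃ x, be S x ≠ 0 ∧ u x = x := by
  let f : V →ₗ[L] V := LinearMap.id - u.toLinearMap
  have fJ : ∀ v, f (S.J v) = S.J (f v) := fun v => by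
    change S.J v - u (S.J v) = S.J (v - u v)
    rw [hu.2, map_sub]
  have a : St S (LinearMap.range f) := by
    rintro _ ⟨v, rfl⟩
    exact ⟨_, fJ v⟩
  have b : St S (LinearMap.ker f) := fun v hv => by
    rw [LinearMap.mem_ker] at hv ⊢
    rw [fJ, hv, map_zero]
  have c : ¬finrank L V < 2 * finrank L (LinearMap.range f) := fun c => by
    obtain ⟨_, ⟨v, rfl⟩, hv⟩ := ex_big S a c
    exact hv (h v)
  obtain ⟨i, hi⟩ := even_st S a
  obtain ⟨j, hj⟩ := hm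
  have d := f.finrank_range_add_finrank_ker
  obtain ⟨x, h1, h2⟩ := ex_big S b (by omega)
  exact ⟨x, h2, (sub_eq_zero.1 h1).symm⟩

theorem Gp.step (G : Gp S r s) (st : ST3) (hk : Glob k) (hL : NoR L) (hV : 10 ≤ finrank L V)
    {x z a : V} (hx : S.dl x ≠ 0) (hz : S.dl z ≠ 0) (xz : S.Or x z) (xa : S.Or x a)
    (za : S.Or z a) (l : kˣ) (hl : ∀ φ : k →+* ℝ, 0 < φ l ∨ Ng φ (S.dl a)) :
    ∃ g, r g x = x ∧ r g z = z ∧ s g = l := by
  have hz' : (res S hx).dl ⟨z, (mem_Pp S).2 xz⟩ ≠ 0 := hz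
  obtain ⟨v, c, κ, h1, h2, h3, h4, h5⟩ := st k L _ (res (res S hx) hz') hk hL (by
    have := rk_res S x
    have := rk_res (res S hx) ⟨z, (mem_Pp S).2 xz⟩
    omega) ⟨⟨a, (mem_Pp S).2 xa⟩, (mem_Pp _).2 za⟩ l l.ne_zero hl
  have o1 : S.Or x v.1.1 := (mem_Pp S).1 v.1.2
  have o2 : S.Or z v.1.1 := (mem_Pp (res S hx)).1 v.2
  have h : Ad S v.1.1 c := ad_of S h4 (by rintro rfl; simp at h3)
  obtain ⟨g, e1, e2⟩ := G.lift h h2 h3 (t := κ ^ 2 * l - 2) (by
    rw [map_sub, map_ofNat, add_sub_cancel]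
    exact h5.symm)
  obtain ⟨i, e3, e4⟩ := G.sq (Units.mk0 κ h1)⁻¹
  refine ⟨g * i, ?_, ?_, Units.ext ?_⟩
  · rw [map_mul, e3, mul_one, e1]
    exact rl_or S c (or_symm S o1)
  · rw [map_mul, e3, mul_one, e1]
    exact rl_or S c (or_symm S o2)
  · rw [map_mul, Units.val_mul, e2, e4]
    simp only [Units.val_pow_eq_pow_val, Units.val_inv_eq_inv_val, Units.val_mk0]
    field_simp
    ring

theorem do5 (st : ST3) : DO5 := by
  intro k L V _ _ _ _ _ _ S m hk hL hm h5 hV Γ _ r s h1 h2 h3 N hN g hg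
  have G : Gp S r s := ⟨h1, h2, h3⟩
  by_cases hb : ∀ v, be S (v - r g v) = 0
  · obtain ⟨x, a, b⟩ := ex_fix hm hV (h1 g) hb
    exact hN g x hg (dl_ne S a) b
  push Not at hb
  obtain ⟨v, hv⟩ := hb
  obtain ⟨x, a, hx, hw, xa, ha, hs⟩ := pick (S := S) hk hL (by omega)
    (LinearMap.id - (r g).toLinearMap) (v := v) hv
  change be S (x - r g x) ≠ 0 at hw
  obtain ⟨c, h, hc⟩ := move ((h1 g).1 x) (is_be (h1 g) x) hw
  obtain ⟨t, t1, t2⟩ := G.lift_pos h hw hL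
  obtain ⟨z, hz, xz, az, wz⟩ := ex_perp3 S (by omega) (dl_ne S hx) ha xa (x - r g x)
  obtain ⟨u, u1, u2, u3⟩ := G.step st hk hL (by omega) (dl_ne S hx) (dl_ne S hz) xz xa
    (or_symm S az) (s t) fun φ => (ps_or (dl_ne S hw) φ).imp (t2 φ) fun b => hs φ ⟨_, b⟩
  rw [show g = t * u⁻¹ * (u * (t⁻¹ * g)) by group]
  refine mul_mem (hN _ z (by rw [map_mul, map_inv, u3, mul_inv_cancel]) (dl_ne S hz) ?_)
    (hN _ x (by rw [map_mul, map_mul, map_inv, u3, hg, mul_one, mul_inv_cancel]) (dl_ne S hx) ?_)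
  · rw [mul_ap, inv_fix u2, t1]
    exact rl_or S c wz
  · rw [mul_ap, mul_ap, inv_fix (x := x) (by rw [t1, hc]), u1]

end Vale.Agent.P011UD5
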