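import Vale.Agent.P011UD5.Rot
import Vale.Agent.P011LZ.Main
import Mathlib.Topology.Algebra.Module.Cardinality

/-!
The choice of the vectors, by weak approximation at the real places.
-/

set_option autoImplicit false
set_option linter.all false

namespace Vale.Agent.P011UD5

open Vale.Agent.P011L Vale.Agent.P011U QuadraticMap Module

variable {k L V : Type} [Field k] [Field L] [Algebra k L] [AddCommGroup V] [Module L V]
  {S : QJ k L V} {n : ℕ} {φ : k →+* ℝ} {τ : L →+* ℂ}

variable (φ τ) in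
/-- functions which extend continuously to the real points -/
def Cf (f : (Fin n → k) → L) : Prop :=
  ∃ F : (Fin n → ℝ) → ℂ, Continuous F ∧ ∀ x, τ (f x) = F fun i => φ (x i)

variable (φ τ) in
/-- the same for vectors -/
inductive Cv : ((Fin n → k) → V) → Prop
  | one (c : (Fin n → k) → L) (v : V) : Cf φ τ c → Cv fun x => c x • v
  | add (f g : (Fin n → k) → V) : Cv f → Cv g → Cv fun x => f x + g x

theorem Cf.const (c : L) : Cf (n := n) φ τ fun _ => c := ⟨fun _ => τ c, continuous_const, fun _ => rfl⟩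

theorem Cf.add {f g : (Fin n → k) → L} (h : Cf φ τ f) (h' : Cf φ τ g) :
    Cf φ τ fun x => f x + g x := by
  obtain ⟨F, a, b⟩ := h
  obtain ⟨G, c, d⟩ := h'
  exact ⟨_, a.add c, fun x => by rw [map_add, b, d]; rfl⟩

theorem Cf.mul {f g : (Fin n → k) → L} (h : Cf φ τ f) (h' : Cf φ τ g) :
    Cf φ τ fun x => f x * g x := by
  obtain ⟨F, a, b⟩ := h
  obtain ⟨G, c, d⟩ := h'
  exact ⟨_, a.mul c, fun x => by rw [map_mul, b, d]; rfl⟩

theorem Cf.sub {f g : (Fin n → k) → L} (h : Cf φ τ f) (h' : Cf φ τ g) :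
    Cf φ τ fun x => f x - g x := by
  obtain ⟨F, a, b⟩ := h
  obtain ⟨G, c, d⟩ := h'
  exact ⟨_, a.sub c, fun x => by rw [map_sub, b, d]; rfl⟩

theorem Cf.s (T : Tu S φ τ) {f : (Fin n → k) → L} (h : Cf φ τ f) : Cf φ τ fun x => S.σ (f x) := by
  obtain ⟨F, a, b⟩ := h
  exact ⟨_, Complex.continuous_conj.comp a, fun x => by rw [T.2, b]; rfl⟩

theorem Cf.co (T : Tu S φ τ) (i : Fin n) : Cf φ τ fun x : Fin n → k => algebraMap k L (x i) :=
  ⟨fun p => (p i : ℂ), by fun_prop, fun x => T.1 _⟩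

theorem Cv.const (v : V) : Cv (n := n) φ τ fun _ => v := by
  simpa using Cv.one (n := n) (φ := φ) (τ := τ) _ v (Cf.const 1)

theorem Cv.smul {c : (Fin n → k) → L} (hc : Cf φ τ c) {f : (Fin n → k) → V} (h : Cv φ τ f) :
    Cv φ τ fun x => c x • f x := by
  induction h with
  | one d v hd => simpa only [smul_smul] using Cv.one _ v (hc.mul hd)
  | add f g _ _ a b => simpa only [smul_add] using Cv.add _ _ a b

theorem Cv.sub {f g : (Fin n → k) → V} (h : Cv φ τ f) (h' : Cv φ τ g) :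
    Cv φ τ fun x => f x - g x := by
  simpa only [sub_eq_add_neg, neg_one_smul] using Cv.add _ _ h (h'.smul (Cf.const (-1)))

theorem Cv.sum {ι : Type} (t : Finset ι) {f : ι → (Fin n → k) → V} (h : ∀ i, Cv φ τ (f i)) :
    Cv φ τ fun x => ∑ i ∈ t, f i x := by
  classical
  induction t using Finset.induction_on with
  | empty => simpa using Cv.const (n := n) (φ := φ) (τ := τ) (0 : V)
  | insert a t ha ih => simpa only [Finset.sum_insert ha] using Cv.add _ _ (h a) ih

theorem Cv.J (T : Tu S φ τ) {f : (Fin n → k) → V} (h : Cv φ τ f) : Cv φ τ fun x => S.J (f x) := by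
  induction h with
  | one d v hd => simpa only [S.smul] using Cv.one _ (S.J v) (hd.s T)
  | add f g _ _ a b => simpa only [map_add] using Cv.add _ _ a b

theorem Cv.B {f g : (Fin n → k) → V} (h : Cv φ τ f) (h' : Cv φ τ g) :
    Cf φ τ fun x => polar S.q (f x) (g x) := by
  induction h with
  | one d v hd =>
    induction h' with
    | one e u he =>
      simpa only [polar_smul_left, polar_smul_right, smul_eq_mul] using
        he.mul (hd.mul (Cf.const (polar S.q v u)))
    | add f g _ _ a b => simpa only [polar_add_right] using a.add b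
  | add f g _ _ a b => simpa only [polar_add_left] using a.add b

theorem Cv.q {f : (Fin n → k) → V} (h : Cv φ τ f) : Cf φ τ fun x => S.q (f x) := by
  induction h with
  | one d v hd =>
    simpa only [QuadraticMap.map_smul, smul_eq_mul] using (hd.mul hd).mul (Cf.const (S.q v))
  | add f g c d a b => simpa only [QuadraticMap.map_add S.q] using (a.add b).add (c.B d)

theorem Cv.dl (T : Tu S φ τ) {f : (Fin n → k) → V} (h : Cv φ τ f) :
    Cf φ τ fun x => S.dl (f x) := by
  simpa only [QJ.dl, pow_two] using ((h.B (h.J T)).mul (h.B (h.J T))).sub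
    (((Cf.const 4).mul h.q).mul (h.J T).q)

theorem Cv.pr (T : Tu S φ τ) {f g : (Fin n → k) → V} (h : Cv φ τ f) (h' : Cv φ τ g) :
    Cv φ τ fun x => pr S (f x) (g x) :=
  ((h'.smul (h.dl T)).sub (h.smul (((h.B (h.J T)).mul ((h.J T).B h')).sub
    (((Cf.const 2).mul (h.J T).q).mul (h.B h'))))).sub ((h.J T).smul
      (((h.B (h.J T)).mul (h.B h')).sub (((Cf.const 2).mul h.q).mul ((h.J T).B h'))))

/-- `t` is negative at `φ` -/
def Ng (φ : k →+* ℝ) (t : L) : Prop := ∃ e : k, algebraMap k L e = t ∧ φ e < 0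

theorem ng_iff (T : Tu S φ τ) (v : V) : Ng φ (S.dl v) ↔ (τ (S.dl v)).re < 0 := by
  obtain ⟨e, he⟩ := fix S (s_dl S v)
  rw [← he, T.1, Complex.ofReal_re]
  exact ⟨fun ⟨d, a, b⟩ => (algebraMap k L).injective a ▸ b, fun h => ⟨e, rfl, h⟩⟩

theorem Ng.ne {t : L} (h : Ng φ t) : t ≠ 0 := by
  obtain ⟨e, rfl, h⟩ := h
  rintro h0
  rw [(map_eq_zero _).1 h0, map_zero] at h
  exact h.false

theorem ps_or {v : V} (h : S.dl v ≠ 0) (φ : k →+* ℝ) : Ps φ (S.dl v) ∨ Ng φ (S.dl v) := by
  obtain ⟨e, he⟩ := fix S (s_dl S v)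
  have : φ e ≠ 0 := by
    rw [map_ne_zero]
    rintro rfl
    exact h (by rw [← he, map_zero])
  exact (lt_or_gt_of_ne this).symm.imp (fun a => ⟨e, he, a⟩) fun a => ⟨e, he, a⟩

theorem dl_smul (t : L) (v : V) : S.dl (t • v) = (t * S.σ t) ^ 2 * S.dl v := by
  simp only [dl_eq, be_smul, QuadraticMap.map_smul, smul_eq_mul, map_mul]
  ring

theorem Ng.smul {v : V} (h : Ng φ (S.dl v)) {t : L} (ht : t ≠ 0) : Ng φ (S.dl (t • v)) := by
  obtain ⟨e, he, h⟩ := h
  obtain ⟨d, hd⟩ := fix S (t := t * S.σ t) (by rw [map_mul, ss, mul_comm])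
  have : φ d ≠ 0 := by
    rw [map_ne_zero]
    rintro rfl
    exact mul_ne_zero ht ((map_ne_zero S.σ).2 ht) (by rw [← hd, map_zero])
  refine ⟨d ^ 2 * e, by rw [dl_smul, map_mul, map_pow, hd, he], ?_⟩
  rw [map_mul, map_pow]
  exact mul_neg_of_pos_of_neg (by positivity) h

theorem pick1 [NumberField k] (hL : NoR L) (F : (Fin n → k) → V)
    (hF : ∀ φ τ, Tu S φ τ → Cv φ τ F) (P : (k →+* ℝ) → Prop)
    (h : ∀ φ, P φ → ∃ x, Ng φ (S.dl (F x))) {Z : Set (Fin n → k)} (hZ : Z.Finite)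
    (hd : ∀ φ : k →+* ℝ, Dense ((fun x i => φ (x i)) '' Z)ᶜ) :
    ∃ x, ∀ φ : k →+* ℝ, x ∉ Z ∧ (P φ → Ng φ (S.dl (F x))) := by
  choose τ T using ex_tu S hL
  choose G h1 h2 using fun φ => (hF φ _ (T φ)).dl (T φ)
  have o : ∀ φ, IsOpen {p | P φ → (G φ p).re < 0} := fun φ => by
    by_cases hp : P φ
    · simp only [hp, forall_const]
      exact isOpen_lt (Complex.continuous_re.comp (h1 φ)) continuous_const
    · simp [hp]
  obtain ⟨x, hx⟩ := P011LZ.wa (k := k)
    (fun φ => {p | P φ → (G φ p).re < 0} ∩ ((fun x i => φ (x i)) '' Z)ᶜ)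
    (fun φ => (o φ).inter (hZ.image _).isClosed.isOpen_compl) fun φ =>
      (hd φ).inter_open_nonempty _ (o φ) (by
        by_cases hp : P φ
        · obtain ⟨x, hx⟩ := h φ hp
          exact ⟨_, fun _ => by rw [← h2]; exact (ng_iff (T φ) _).1 hx⟩
        · exact ⟨0, fun a => absurd a hp⟩)
  exact ⟨x, fun φ => ⟨fun a => (hx φ).2 ⟨x, a, rfl⟩, fun a => (ng_iff (T φ) _).2 (by
    rw [h2]; exact (hx φ).1 a)⟩⟩

theorem fin_be {u v : V} (h : be S u ≠ 0 ∨ be S v ≠ 0) :
    {e : k | be S (u + algebraMap k L e • v) = 0}.Finite := by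
  classical
  let p : Polynomial L := Polynomial.C (be S v) * Polynomial.X ^ 2 + Polynomial.C
    (polar S.q u (S.J v) + S.σ (polar S.q u (S.J v))) * Polynomial.X + Polynomial.C (be S u)
  have hp : p ≠ 0 := fun e => by
    have a := congrArg (·.coeff 0) e
    have b := congrArg (·.coeff 2) e
    simp [p, Polynomial.coeff_X, Polynomial.coeff_C] at a b
    exact h.elim (· a) (· b)
  refine ((p.rootSet_finite L).preimage (algebraMap k L).injective.injOn).subset fun e he => ?_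
  rw [Set.mem_preimage, Polynomial.mem_rootSet_of_ne hp, ← he]
  simp only [p, be_add, be_smul, S.smul, polar_smul_right, smul_eq_mul, map_mul, map_add, map_pow,
    AlgEquiv.commutes, Polynomial.aeval_X, Polynomial.aeval_C, Algebra.algebraMap_self_apply]
  ring

theorem glob_inf (h : Glob k) : Infinite k := by
  rcases h with h | ⟨F, _, _, _, -⟩
  · exact .of_injective _ (Nat.cast_injective (R := k))
  · haveI : Infinite (RatFunc F) := .of_injective _ (RatFunc.algebraMap_injective F)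
    exact .of_injective _ (algebraMap (RatFunc F) k).injective

theorem glob_nf (h : Glob k) (φ : k →+* ℝ) : NumberField k := by
  rcases h with h | ⟨F, _, _, _, -⟩
  · exact h
  · haveI := Fintype.ofFinite F
    have := congrArg (φ.comp ((algebraMap (RatFunc F) k).comp (algebraMap F (RatFunc F))))
      (FiniteField.cast_card_eq_zero F)
    rw [map_natCast, map_zero, Nat.cast_eq_zero] at this
    exact absurd this Fintype.card_ne_zero

theorem pick [FiniteDimensional L V] (hk : Glob k) (hL : NoR L) (h4 : 4 < finrank L V)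
    (g : V →ₗ[L] V) {v : V} (hv : be S (g v) ≠ 0) : ∃ x a, be S x ≠ 0 ∧ be S (g x) ≠ 0 ∧
      S.Or x a ∧ S.dl a ≠ 0 ∧ ∀ φ : k →+* ℝ, (∃ u, Ng φ (S.dl u)) → Ng φ (S.dl a) := by
  classical
  have fin : ∀ x, be S x ≠ 0 → {e : k | be S (x + algebraMap k L e • v) = 0 ∨
      be S (g (x + algebraMap k L e • v)) = 0}.Finite := fun x hx => by
    simp only [map_add, map_smul]
    exact (fin_be (.inl hx)).union (fin_be (.inr hv))
  by_cases hS : ∃ φ : k →+* ℝ, ∃ u, Ng φ (S.dl u)
  swap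
  · haveI := glob_inf hk
    obtain ⟨x, hx⟩ := ex_one S (by omega)
    obtain ⟨e, he⟩ := (fin x hx).exists_notMem
    obtain ⟨a, h1, h2⟩ := ex_perp S h4 (x + algebraMap k L e • v)
    exact ⟨_, a, fun h => he (.inl h), fun h => he (.inr h), h2, dl_ne S h1, fun φ h =>
      absurd ⟨φ, h⟩ hS⟩
  obtain ⟨φ0, h0⟩ := hS
  haveI := glob_nf hk φ0
  obtain ⟨m, ⟨e⟩⟩ := Finite.exists_equiv_fin (k →+* ℝ)
  have : ∀ φ : k →+* ℝ, ∃ a, (∃ u, Ng φ (S.dl u)) → Ng φ (S.dl a) := fun φ => by
    by_cases h : ∃ u, Ng φ (S.dl u)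
    · exact ⟨h.choose, fun _ => h.choose_spec⟩
    · exact ⟨0, fun a => absurd a h⟩
  choose av hav using this
  obtain ⟨y, hy⟩ := pick1 hL (fun x : Fin m → k => ∑ i, algebraMap k L (x i) • av (e.symm i))
    (fun φ τ T => Cv.sum _ fun i => Cv.one _ _ (Cf.co T i)) (fun φ => ∃ u, Ng φ (S.dl u))
    (fun φ h => ⟨Pi.single (e φ) 1, by
      rw [Finset.sum_eq_single (e φ) (fun i _ hi => by simp [hi]) (by simp)]
      simpa using hav φ h⟩) Set.finite_empty (by simp)
  generalize ∑ i, algebraMap k L (y i) • av (e.symm i) = a at hy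
  obtain ⟨x, hx, o⟩ := ex_perp S h4 a
  have hZ := (fin x hx).preimage (f := fun z : Fin 1 → k => z 0)
    (fun a _ b _ h => funext fun i => by rw [Subsingleton.elim i 0]; exact h)
  obtain ⟨z, hz⟩ := pick1 hL (fun z : Fin 1 → k => pr S (x + algebraMap k L (z 0) • v) a)
    (fun φ τ T => (Cv.add _ _ (Cv.const x) (Cv.one _ _ (Cf.co T 0))).pr T (Cv.const a))
    (fun φ => ∃ u, Ng φ (S.dl u)) (fun φ h => ⟨0, by
      simp only [Pi.zero_apply, map_zero, zero_smul, add_zero, pr_or S (or_symm S o)]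
      exact ((hy φ).2 h).smul (dl_ne S hx)⟩) hZ
    fun φ => (hZ.image _).countable.dense_compl ℝ
  exact ⟨_, _, fun h => (hz φ0).1 (.inl h), fun h => (hz φ0).1 (.inr h), or_pr S _ _,
    ((hz φ0).2 h0).ne, fun φ => (hz φ).2⟩

end Vale.Agent.P011UD5
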