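import Vale.Agent.P011UD5.Kit

/-!
Rotations in a plane and their spinor norms.
-/

set_option autoImplicit false
set_option linter.all false

namespace Vale.Agent.P011UD5

open Vale.Agent.P011L Vale.Agent.P011U QuadraticMap Module

variable {k L V : Type} [Field k] [Field L] [Algebra k L] [AddCommGroup V] [Module L V]
  (S : QJ k L V)

/-- minus the reduced norm of `c + q w J` -/
def De (w : V) (c : L) : L := bb S * (S.q w * S.σ (S.q w)) - c * S.σ c

/-- the coefficient of `w` -/
def al (w : V) (c : L) (v : V) : L :=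
  (De S w c)⁻¹ * (bb S * S.σ (S.q w) * polar S.q w v - S.σ c * polar S.q (S.J w) v)

/-- the coefficient of `J w` -/
def ga (w : V) (c : L) (v : V) : L :=
  (De S w c)⁻¹ * (S.q w * polar S.q (S.J w) v - c * polar S.q w v)

/-- the rotation as a linear map -/
def rl (w : V) (c : L) : V →ₗ[L] V where
  toFun v := v - al S w c v • w - ga S w c v • S.J w
  map_add' x y := by
    simp only [al, ga, polar_add_right]
    module
  map_smul' t x := by
    simp only [al, ga, polar_smul_right, smul_eq_mul, RingHom.id_apply]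
    module

theorem rl_apply (w : V) (c : L) (v : V) :
    rl S w c v = v - al S w c v • w - ga S w c v • S.J w := rfl

/-- admissible parameters -/
structure Ad (w : V) (c : L) : Prop where
  tr : c + S.σ c = be S w
  de : De S w c ≠ 0

theorem De_s (w : V) (c : L) : De S w (S.σ c) = De S w c := by
  simp only [De, ss]
  ring

theorem s_De (w : V) (c : L) : S.σ (De S w c) = De S w c := by
  simp only [De, map_sub, map_mul, ss, s_bb]
  ring

theorem ad_of {w : V} {c : L} (h : c + S.σ c = be S w) (hc : c ≠ 0) : Ad S w c :=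
  ⟨h, fun e => hc (nrd_zero S e).2⟩

theorem B_rl (w : V) (c : L) (v : V) : polar S.q w (rl S w c v) =
    polar S.q w v - al S w c v * (2 * S.q w) - ga S w c v * be S w := by
  simp only [rl_apply, polar_sub_right, polar_smul_right, smul_eq_mul, B_self, be]

theorem BJ_rl (w : V) (c : L) (v : V) : polar S.q (S.J w) (rl S w c v) =
    polar S.q (S.J w) v - al S w c v * be S w - ga S w c v * (2 * (bb S * S.σ (S.q w))) := by
  simp only [rl_apply, polar_sub_right, polar_smul_right, smul_eq_mul, B_self, be, qJ,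
    polar_comm _ (S.J w) w]

theorem rl_or {w v : V} (c : L) (h : S.Or w v) : rl S w c v = v := by
  simp [rl_apply, al, ga, h.1, h.2]

theorem rl_J (w : V) (c : L) (v : V) : rl S w c (S.J v) = S.J (rl S w c v) := by
  simp only [rl_apply, map_sub, S.smul, JJ, al, ga, map_mul, map_inv₀, s_De, s_bb, ss, B_JJ,
    B_Jr S w v]
  module

theorem q_sub (x y : V) : S.q (x - y) = S.q x + S.q y - polar S.q x y := by
  rw [sub_eq_add_neg, QuadraticMap.map_add S.q, QuadraticMap.map_neg, polar_neg_right]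
  ring

variable {S} {w : V} {c : L}

theorem Ad.symm (h : Ad S w c) : Ad S w (S.σ c) :=
  ⟨by rw [ss, add_comm, h.tr], by rw [De_s]; exact h.de⟩

theorem Ad.q (h : Ad S w c) (v : V) : S.q (rl S w c v) = S.q v := by
  have hd := h.de
  have e : De S w c = bb S * (S.q w * S.σ (S.q w)) - c * S.σ c := rfl
  simp only [rl_apply, q_sub, QuadraticMap.map_smul, polar_sub_left, polar_smul_left,
    polar_smul_right, smul_eq_mul, qJ, polar_comm _ v, al, ga]
  rw [← be, ← h.tr]
  field_simp
  rw [e]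
  ring

theorem Ad.inv (h : Ad S w c) (v : V) : rl S w (S.σ c) (rl S w c v) = v := by
  have hd := h.de
  have e : De S w c = bb S * (S.q w * S.σ (S.q w)) - c * S.σ c := rfl
  have a : al S w (S.σ c) (rl S w c v) = -al S w c v := by
    rw [al, B_rl, BJ_rl, De_s, ss, ← h.tr, al, ga]
    field_simp
    rw [e]
    ring
  have g : ga S w (S.σ c) (rl S w c v) = -ga S w c v := by
    rw [ga, B_rl, BJ_rl, De_s, ← h.tr, al, ga]
    field_simp
    rw [e]
    ring
  rw [rl_apply, a, g, rl_apply]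
  module

/-- the rotation -/
def Ad.rot (h : Ad S w c) : V ≃ₗ[L] V :=
  LinearEquiv.ofLinear (rl S w c) (rl S w (S.σ c))
    (LinearMap.ext fun v => by simpa using h.symm.inv v) (LinearMap.ext h.inv)

theorem Ad.rot_apply (h : Ad S w c) (v : V) : h.rot v = rl S w c v := rfl

theorem Ad.rot_symm (h : Ad S w c) (v : V) : h.rot.symm v = rl S w (S.σ c) v := rfl

theorem Ad.is (h : Ad S w c) : S.Is h.rot := ⟨h.q, rl_J S w c⟩

theorem Ad.trace (h : Ad S w c) {t : L} (ht : (2 + t) * De S w c = (c - S.σ c) ^ 2) (v : V) :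
    S.Or w (rl S w c v + rl S w (S.σ c) v - t • v) := by
  have hd := h.de
  have e : De S w c = bb S * (S.q w * S.σ (S.q w)) - c * S.σ c := rfl
  obtain rfl : t = (c - S.σ c) ^ 2 / De S w c - 2 := by
    field_simp
    linear_combination ht
  constructor
  · simp only [polar_sub_right, polar_add_right, polar_smul_right, smul_eq_mul, B_rl, al, ga, De_s,
      ss, ← h.tr]
    field_simp
    rw [e]
    ring
  · simp only [polar_sub_right, polar_add_right, polar_smul_right, smul_eq_mul, BJ_rl, al, ga,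
      De_s, ss, ← h.tr]
    field_simp
    rw [e]
    ring

theorem Ad.ex_t (h : Ad S w c) :
    ∃ t : k, (2 + algebraMap k L t) * De S w c = (c - S.σ c) ^ 2 := by
  obtain ⟨t, ht⟩ := fix S (t := (c - S.σ c) ^ 2 / De S w c - 2) (by
    simp only [map_sub, map_div₀, map_pow, ss, s_De, map_ofNat]
    ring)
  have := h.de
  exact ⟨t, by rw [ht]; field_simp; ring⟩

theorem Ad.four (h : Ad S w c) : 4 * De S w c = (c - S.σ c) ^ 2 - S.dl w := by
  rw [dl_eq, ← h.tr, De]
  ring

theorem ex_c (h : be S w ≠ 0) : ∃ c, Ad S w c ∧ c ≠ S.σ c := by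
  obtain ⟨t, ht⟩ := ex_mv S
  have hd : t - S.σ t ≠ 0 := sub_ne_zero.2 ht.symm
  have hd' : S.σ t - t ≠ 0 := sub_ne_zero.2 ht
  have e : be S w * t / (t - S.σ t) + S.σ (be S w * t / (t - S.σ t)) = be S w := by
    simp only [map_div₀, map_mul, map_sub, ss, s_be]
    field_simp
    ring
  generalize be S w * t / (t - S.σ t) = c at e
  have key : ∀ c, c + S.σ c = be S w → c ≠ S.σ c → ∃ c, Ad S w c ∧ c ≠ S.σ c := fun c a b =>
    ⟨c, ad_of S a (by rintro rfl; simp at b), b⟩
  by_cases hc : c = S.σ c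
  · refine key (c + (t - S.σ t)) (by simp only [map_add, map_sub, ss]; linear_combination e) ?_
    simp only [map_add, map_sub, ss]
    intro h2
    refine h (mul_left_cancel₀ hd ?_)
    linear_combination (-(t - S.σ t)) * e + c * h2 - (c + (t - S.σ t)) * hc
  · exact key c e hc

theorem is_mul {u u' : V ≃ₗ[L] V} (h : S.Is u) (h' : S.Is u') : S.Is (u * u') :=
  ⟨fun v => (h.1 _).trans (h'.1 v), fun v => (congrArg u (h'.2 v)).trans (h.2 _)⟩

theorem is_symm {u : V ≃ₗ[L] V} (h : S.Is u) : S.Is u.symm :=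
  ⟨fun v => by rw [← h.1, u.apply_symm_apply], fun v => u.injective (by
    rw [u.apply_symm_apply, h.2, u.apply_symm_apply])⟩

theorem is_B {u : V ≃ₗ[L] V} (h : S.Is u) (x y : V) : polar S.q (u x) (u y) = polar S.q x y := by
  simp only [polar, ← map_add u, h.1]

theorem is_be {u : V ≃ₗ[L] V} (h : S.Is u) (x : V) : be S (u x) = be S x := by
  rw [be, ← h.2, is_B h, be]

theorem is_or {u : V ≃ₗ[L] V} (h : S.Is u) {x y : V} (o : S.Or x y) : S.Or (u x) (u y) :=
  ⟨by rw [is_B h, o.1], by rw [← h.2, is_B h, o.2]⟩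

theorem or_add {x u v : V} (h : S.Or x u) (h' : S.Or x v) : S.Or x (u + v) :=
  (mem_Pp S).1 (add_mem ((mem_Pp S).2 h) ((mem_Pp S).2 h'))

theorem or_sub {x u v : V} (h : S.Or x u) (h' : S.Or x v) : S.Or x (u - v) :=
  (mem_Pp S).1 (sub_mem ((mem_Pp S).2 h) ((mem_Pp S).2 h'))

/-- `t` is positive at `φ` -/
def Ps (φ : k →+* ℝ) (t : L) : Prop := ∃ e : k, algebraMap k L e = t ∧ 0 < φ e

theorem Ad.pos (h : Ad S w c) (hc : c ≠ S.σ c) (hL : NoR L) {t : k}
    (ht : (2 + algebraMap k L t) * De S w c = (c - S.σ c) ^ 2) {φ : k →+* ℝ}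
    (hp : Ps φ (S.dl w)) : 0 < φ (2 + t) ∧ 0 < φ (2 + -t) := by
  obtain ⟨τ, h1, h2⟩ := ex_tu S hL φ
  obtain ⟨e, he, hp⟩ := hp
  obtain ⟨d, hd⟩ := fix S (s_De S w c)
  have a : τ ((c - S.σ c) ^ 2) = ((-4 * (τ c).im ^ 2 : ℝ) : ℂ) := by
    rw [map_pow, map_sub, h2, Complex.sub_conj, mul_pow, Complex.I_sq]
    push_cast
    ring
  have b : (τ c).im ≠ 0 := fun h0 => hc (τ.injective (by
    rw [h2, Complex.conj_eq_iff_im.2 h0]))
  have b' : 0 < (τ c).im ^ 2 := by positivity
  have f := congrArg τ h.four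
  have g := congrArg τ ht
  rw [map_sub, a, ← he, ← hd, map_mul, h1, h1, map_ofNat] at f
  rw [a, ← hd, map_mul, map_add, h1, h1, map_ofNat] at g
  have f' : 4 * φ d = -4 * (τ c).im ^ 2 - φ e := by exact_mod_cast f
  have g' : (2 + φ t) * φ d = -4 * (τ c).im ^ 2 := by exact_mod_cast g
  rw [map_add, map_add, map_neg, map_ofNat]
  constructor <;> nlinarith

variable (S) in
/-- the Clifford group with the vector representation `r` and the spinor norm `s` -/
structure Gp {Γ : Type} [Group Γ] (r : Γ →* (V ≃ₗ[L] V)) (s : Γ →* kˣ) : Prop where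
  is : ∀ g, S.Is (r g)
  sq : ∀ t : kˣ, ∃ g, r g = 1 ∧ s g = t ^ 2
  rot : ∀ (w : V) (u : V ≃ₗ[L] V) (t : k), S.dl w ≠ 0 → S.Is u → (∀ v, S.Or w v → u v = v) →
    (∀ v, u v + u.symm v - algebraMap k L t • v ∈ {x | S.Or w x}) → 2 + t ≠ 0 →
    ∃ g, r g = u ∧ (s g : k) = 2 + t

variable {Γ : Type} [Group Γ] {r : Γ →* (V ≃ₗ[L] V)} {s : Γ →* kˣ}

theorem Gp.lift (G : Gp S r s) (h : Ad S w c) (hw : S.dl w ≠ 0) (hc : c ≠ S.σ c) {t : k}
    (ht : (2 + algebraMap k L t) * De S w c = (c - S.σ c) ^ 2) :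
    ∃ g, r g = h.rot ∧ (s g : k) = 2 + t := by
  refine G.rot w _ t hw h.is (fun v o => rl_or S c o) (h.trace ht) fun h0 => ?_
  rw [← map_ofNat (algebraMap k L) 2, ← map_add, h0, map_zero, zero_mul] at ht
  exact pow_ne_zero 2 (sub_ne_zero.2 hc) ht.symm

theorem Gp.lift_pos (G : Gp S r s) (h : Ad S w c) (hw : be S w ≠ 0) (hL : NoR L) :
    ∃ g, r g = h.rot ∧ ∀ φ : k →+* ℝ, Ps φ (S.dl w) → 0 < φ (s g) := by
  by_cases hc : c = S.σ c
  swap
  · obtain ⟨t, ht⟩ := h.ex_t
    obtain ⟨g, h1, h2⟩ := G.lift h (dl_ne S hw) hc ht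
    exact ⟨g, h1, fun φ hp => h2 ▸ (h.pos hc hL ht hp).1⟩
  obtain ⟨c', h', hc'⟩ := ex_c hw
  obtain ⟨t, ht⟩ := h'.ex_t
  obtain ⟨g, h1, h2⟩ := G.lift h' (dl_ne S hw) hc' ht
  have n : ∀ v, S.Or w (rl S w c v + v) := fun v => by
    have hd := h.de
    have e : De S w c = bb S * (S.q w * S.σ (S.q w)) - c * c := by rw [De, ← hc]
    constructor
    · simp only [polar_add_right, B_rl, al, ga, ← h.tr, ← hc]
      field_simp
      rw [e]
      ring
    · simp only [polar_add_right, BJ_rl, al, ga, ← h.tr, ← hc]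
      field_simp
      rw [e]
      ring
  obtain ⟨g', h3, h4⟩ := G.rot w (h'.rot.symm * h.rot) (-t) (dl_ne S hw)
    (is_mul (is_symm h'.is) h.is) (fun v o => by
      change rl S w _ (rl S w _ v) = v
      rw [rl_or S _ o, rl_or S _ o]) (fun v => by
      have a := n v
      have b := n (h'.rot v)
      have e := or_sub (or_add a b) (h'.trace ht v)
      change S.Or w (rl S w _ (rl S w _ v) + rl S w _ (h'.rot v) - _)
      rw [← rl_or S (S.σ c') a, map_add] at e
      rw [← hc, map_neg]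
      refine (congrArg (S.Or w) ?_).mp e
      rw [h'.rot_apply]
      module) (fun h0 => by
      have f := h'.four
      have h5 : (2 : L) - algebraMap k L t = 0 := by
        rw [← map_ofNat (algebraMap k L) 2, ← map_sub, sub_eq_add_neg, h0, map_zero]
      exact dl_ne S hw (by linear_combination f - ht - De S w c' * h5))
  refine ⟨g * g', ?_, fun φ hp => ?_⟩
  · rw [map_mul, h1, h3]
    exact mul_inv_cancel_left h'.rot h.rot
  · rw [map_mul, Units.val_mul, map_mul, h2, h4]
    exact mul_pos (h'.pos hc' hL ht hp).1 (h'.pos hc' hL ht hp).2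

/-- the rotation which moves `x` to `y` -/
theorem move {x y : V} (hq : S.q y = S.q x) (hb : be S y = be S x) (hw : be S (x - y) ≠ 0) :
    ∃ c, ∃ h : Ad S (x - y) c, h.rot x = y := by
  generalize hw' : x - y = w at hw
  obtain rfl : y = x - w := by rw [← hw', sub_sub_cancel]
  rw [q_sub] at hq
  rw [be_sub] at hb
  have tr : polar S.q x (S.J w) + S.σ (polar S.q x (S.J w)) = be S w := by linear_combination -hb
  have h := ad_of S tr (by rintro e; rw [e] at tr; simp at tr; exact hw tr.symm)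
  refine ⟨_, h, ?_⟩
  have hd := h.de
  have e1 : polar S.q w x = S.q w := by rw [polar_comm]; linear_combination -hq
  have a : al S w (polar S.q x (S.J w)) x = 1 := by
    rw [al, e1, polar_comm _ (S.J w)]
    field_simp
    rw [De]
    ring
  have g : ga S w (polar S.q x (S.J w)) x = 0 := by
    rw [ga, e1, polar_comm _ (S.J w)]
    ring
  rw [h.rot_apply, rl_apply, a, g, one_smul, zero_smul, sub_zero]

end Vale.Agent.P011UD5
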