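import Vale.Agent.P011UD5.Main
import Vale.Agent.P011U.IF5

/-!
The commutator trick.
-/

set_option autoImplicit false
set_option linter.all false

namespace Vale.Agent.P011UD5

open Vale.Agent.P011L Vale.Agent.P011U QuadraticMap Module

variable {k L V : Type} [Field k] [Field L] [Algebra k L] [AddCommGroup V] [Module L V]
  {S : QJ k L V} {Γ : Type} [Group Γ] {r : Γ →* (V ≃ₗ[L] V)} {s : Γ →* kˣ}

variable (S) in
/-- the plane of `w` -/
def Pl (w : V) : Submodule L V := Submodule.span L {w, S.J w}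

theorem mem_Pl {w y : V} : y ∈ Pl S w ↔ ∃ a c : L, a • w + c • S.J w = y := Submodule.mem_span_pair

theorem st_Pl (w : V) : St S (Pl S w) := fun y hy => by
  obtain ⟨a, c, rfl⟩ := mem_Pl.1 hy
  exact mem_Pl.2 ⟨S.σ c * bb S, S.σ a, by rw [map_add, S.smul, S.smul, JJ, smul_smul, add_comm]⟩

theorem or_Pl {x w y : V} (h : S.Or x w) (hy : y ∈ Pl S w) : S.Or x y := by
  obtain ⟨a, c, rfl⟩ := mem_Pl.1 hy
  exact (mem_Pp S).1 (add_mem (Submodule.smul_mem _ _ ((mem_Pp S).2 h))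
    (Submodule.smul_mem _ _ ((mem_Pp S).2 (or_J S h))))

theorem ind {w : V} (hw : S.dl w ≠ 0) {a c : L} (h : S.Or w (a • w + c • S.J w)) :
    a = 0 ∧ c = 0 := by
  obtain ⟨h1, h2⟩ := h
  simp only [polar_add_right, polar_smul_right, smul_eq_mul, B_self, polar_comm _ (S.J w) w]
    at h1 h2
  constructor
  · apply mul_left_cancel₀ hw
    rw [QJ.dl]
    linear_combination polar S.q w (S.J w) * h2 - 2 * S.q (S.J w) * h1
  · apply mul_left_cancel₀ hw
    rw [QJ.dl]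
    linear_combination polar S.q w (S.J w) * h1 - 2 * S.q w * h2

theorem sc1 [Infinite k] {f : V →ₗ[L] V} (h : ∀ w, be S w ≠ 0 → f w ∈ Pl S w) {w u : V}
    (hw : be S w ≠ 0) (hu : be S u ≠ 0) (o : S.Or w u) {a c a' c' : L}
    (e : a • w + c • S.J w = f w) (e' : a' • u + c' • S.J u = f u) {t : L} (ht : t ≠ 0) :
    a = a' ∧ c * S.σ t = t * c' := by
  obtain ⟨ε, hε⟩ := ((fin_be (S := S) (u := w) (v := t • u) (.inl hw)).union
    (Set.finite_singleton 0)).exists_notMem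
  have h0 : algebraMap k L ε ≠ 0 := fun h => hε (.inr ((map_eq_zero _).1 h))
  obtain ⟨x, y, hxy⟩ := mem_Pl.1 (h _ fun h => hε (.inl h))
  simp only [map_add, map_smul, S.smul, AlgEquiv.commutes, ← e, ← e'] at hxy
  have key : (a - x) • w + (c - y) • S.J w = (algebraMap k L ε * t * (x - a')) • u +
      (algebraMap k L ε * (y * S.σ t - t * c')) • S.J u := by
    linear_combination (norm := module) (-1 : L) • hxy
  obtain ⟨a1, a2⟩ := ind (dl_ne S hw) (key ▸ or_Pl o (mem_Pl.2 ⟨_, _, rfl⟩))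
  obtain ⟨a3, a4⟩ := ind (dl_ne S hu) (key ▸ or_Pl (or_symm S o) (mem_Pl.2 ⟨_, _, rfl⟩))
  have a5 := (mul_eq_zero.1 a3).resolve_left (mul_ne_zero h0 ht)
  have a6 := (mul_eq_zero.1 a4).resolve_left h0
  exact ⟨by linear_combination a1 + a5, by linear_combination a6 + S.σ t * a2⟩

theorem keep {w : V} {u g : V ≃ₗ[L] V} (hu : S.Is u) (h1 : g w ≠ w) (h2 : ∀ v, g v - v ∈ Pl S w)
    (h : Commute u g) : u w ∈ Pl S w := by
  obtain ⟨a, c, e⟩ := mem_Pl.1 (h2 w)
  have m : a • u w + c • S.J (u w) ∈ Pl S w := by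
    rw [← hu.2, ← map_smul, ← map_smul, ← map_add, e, map_sub,
      show u (g w) = g (u w) from DFunLike.congr_fun h.eq w]
    exact h2 _
  have m2 := sub_mem ((Pl S w).smul_mem c (st_Pl w _ m)) ((Pl S w).smul_mem (S.σ a) m)
  have n : bb S * (c * S.σ c) - a * S.σ a ≠ 0 := fun n => by
    obtain ⟨rfl, rfl⟩ := nrd_zero S n
    exact h1 (sub_eq_zero.1 (by rw [← e]; simp))
  rw [← (Pl S w).smul_mem_iff n]
  refine (congrArg (· ∈ Pl S w) ?_).mp m2
  rw [map_add, S.smul, S.smul, JJ]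
  module

theorem Gp.sqr (G : Gp S r s) {w : V} (hw : be S w ≠ 0) : ∃ g, s g = 1 ∧
    (∀ v, S.Or w v → r g v = v) ∧ r g w ≠ w ∧ ∀ v, r g v - v ∈ Pl S w := by
  obtain ⟨c, h, hc⟩ := ex_c hw
  obtain ⟨t, ht⟩ := h.ex_t
  obtain ⟨g, h1, -⟩ := G.lift h (dl_ne S hw) hc ht
  obtain ⟨i, h2, h3⟩ := G.sq (s g)⁻¹
  have e : ∀ v, r (g * g * i) v = rl S w c (rl S w c v) := fun v => by
    rw [map_mul, h2, mul_one, map_mul, h1]
    rfl
  have m : ∀ v, rl S w c v - v ∈ Pl S w := fun v =>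
    mem_Pl.2 ⟨-al S w c v, -ga S w c v, by rw [rl_apply]; module⟩
  refine ⟨g * g * i, by rw [map_mul, map_mul, h3, ← pow_two, ← mul_pow, mul_inv_cancel, one_pow],
    fun v o => by rw [e, rl_or S c o, rl_or S c o], fun h0 => ?_, fun v => ?_⟩
  · have a := congrArg (rl S w (S.σ c)) ((e w).symm.trans h0)
    rw [h.inv, rl_apply, rl_apply] at a
    have b : (al S w c w - al S w (S.σ c) w) • w + (ga S w c w - ga S w (S.σ c) w) • S.J w = 0 := by
      linear_combination (norm := module) (-1 : L) • a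
    have d := (ind (dl_ne S hw) (b ▸ (mem_Pp S).1 (zero_mem _))).1
    rw [al, al, De_s, ss, polar_comm _ (S.J w), ← be] at d
    refine mul_ne_zero (inv_ne_zero h.de) (mul_ne_zero (sub_ne_zero.2 hc) hw) ?_
    linear_combination d
  · rw [e, ← sub_add_sub_cancel _ (rl S w c v)]
    exact add_mem (m _) (m _)

variable [FiniteDimensional L V] [Infinite k]

theorem sc (h6 : 6 < finrank L V) {f : V →ₗ[L] V} (h : ∀ w, be S w ≠ 0 → f w ∈ Pl S w) :
    ∃ l : L, ∀ v, f v = l • v := by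
  choose! a c e using fun w hw => mem_Pl.1 (h w hw)
  have c0 : ∀ w, be S w ≠ 0 → c w = 0 := fun w hw => by
    obtain ⟨u, hu, o⟩ := ex_perp S (by omega) w
    obtain ⟨t, ht⟩ := ex_mv S
    have h1 := (sc1 h hw hu o (e w hw) (e u hu) one_ne_zero).2
    have h2 := (sc1 h hw hu o (e w hw) (e u hu) (t := t) (by rintro rfl; simp at ht)).2
    rw [map_one] at h1
    apply mul_left_cancel₀ (sub_ne_zero.2 ht)
    linear_combination h2 - t * h1
  obtain ⟨w, hw⟩ := ex_one S (by omega)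
  have a0 : ∀ v, be S v ≠ 0 → f v = a w • v := fun v hv => by
    obtain ⟨u, hu, o, o'⟩ := ex_perp2 S h6 (dl_ne S hw) v
    rw [(sc1 h hw hu o (e w hw) (e u hu) one_ne_zero).1,
      ← (sc1 h hv hu o' (e v hv) (e u hu) one_ne_zero).1, ← e v hv, c0 v hv, zero_smul, add_zero]
  refine ⟨a w, fun v => ?_⟩
  obtain ⟨ε, hε⟩ := (fin_be (S := S) (u := v) (v := w) (.inr hw)).exists_notMem
  have := a0 _ hε
  rw [map_add, map_smul, a0 w hw] at this
  linear_combination (norm := module) this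

theorem Gp.ncz (G : Gp S r s) (h8 : 8 < finrank L V) {m : Γ} {z x : V} (hz : S.dl z ≠ 0)
    (mz : r m z = z) (hx : x ≠ 0) (o : S.Or z x) (mx : r m x = x) (hm : r m ≠ 1) :
    ∃ g, s g = 1 ∧ r g z = z ∧ ¬Commute m g := by
  by_contra hn
  push Not at hn
  have st : ∀ v ∈ Pp S z, (r m).toLinearMap v ∈ Pp S z := fun v hv =>
    (mem_Pp S).2 (mz ▸ is_or (G.is m) ((mem_Pp S).1 hv))
  obtain ⟨l, hl⟩ := sc (S := res S hz) (by have := rk_res S z; omega)
    (f := (r m).toLinearMap.restrict st) fun w hw => by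
      obtain ⟨g, g1, g2, g3, g4⟩ := G.sqr (w := w.1) hw
      obtain ⟨a, c, e⟩ := mem_Pl.1 (keep (G.is m) g3 g4
        ((hn g g1 (g2 z (or_symm S ((mem_Pp S).1 w.2)))).map r))
      exact mem_Pl.2 ⟨a, c, Subtype.ext e⟩
  have hl' : ∀ v, S.Or z v → r m v = l • v := fun v hv =>
    congrArg Subtype.val (hl ⟨v, (mem_Pp S).2 hv⟩)
  obtain rfl : l = 1 := smul_left_injective L hx (by
    change l • x = (1 : L) • x
    rw [← hl' x o, mx, one_smul])
  refine hm (LinearEquiv.ext fun v => smul_right_injective V hz ?_)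
  have := hl' _ (or_pr S z v)
  simp only [pr, map_sub, map_smul, (G.is m).2, mz, one_smul] at this
  exact sub_left_injective (sub_left_injective this)

theorem do6 : DO6 := by
  intro k L V _ _ _ _ _ _ S m hk h5 hV Γ _ r s h1 h2 h3 hc N N1 N2 ⟨n, hn, g0, s0, c0⟩ hN
  have G : Gp S r s := ⟨h1, h2, h3⟩
  obtain ⟨w, hw, nw⟩ : ∃ w, be S w ≠ 0 ∧ r n w ∉ Pl S w := by
    by_contra h
    push Not at h
    obtain ⟨l, hl⟩ := sc (S := S) (by omega) (f := (r n).toLinearMap) h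
    replace hl : ∀ v, r n v = l • v := hl
    obtain ⟨w, hw⟩ := ex_one S (by omega)
    have a := is_B (h1 n) w (S.J w)
    rw [hl, hl, polar_smul_left, polar_smul_right, smul_eq_mul, smul_eq_mul, ← be] at a
    have b : l * l = 1 := mul_right_cancel₀ hw (by linear_combination a)
    refine c0 (hc n ((mul_self_eq_one_iff.1 b).imp ?_ ?_) (N1 n hn) g0 s0) <;>
      rintro rfl v <;> simp [hl]
  have ne : ∀ {x : V}, S.dl x ≠ 0 → x ≠ 0 := fun h e => h (by simp [e, QJ.dl])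
  have sp : ∀ x z, S.dl x ≠ 0 → S.dl z ≠ 0 → S.Or x z → (∀ g, s g = 1 → r g x = x → g ∈ N) →
      ∀ g, s g = 1 → r g z = z → g ∈ N := fun x z hx hz o H => by
    obtain ⟨u, hu, xu, zu⟩ := ex_perp2 S (by omega) hx z
    obtain ⟨g, g1, g2, g3, -⟩ := G.sqr hu
    have a := g2 x (or_symm S xu)
    have b := g2 z (or_symm S zu)
    exact hN z hz ⟨g, H g g1 a, b, G.ncz (by omega) hz b (ne hx) (or_symm S o) a
      fun e => g3 (by rw [e]; rfl)⟩
  obtain ⟨g, g1, g2, g3, g4⟩ := G.sqr hw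
  have fx : ∀ v, S.Or w v → S.Or (r n w) v → r (n * (g * n⁻¹ * g⁻¹)) v = v := fun v a b => by
    have c := is_or (h1 n⁻¹) b
    rw [inv_fix rfl] at c
    rw [mul_ap, mul_ap, mul_ap, inv_fix (g2 v a), g2 _ c, ← mul_ap, mul_inv_cancel, map_one]
    rfl
  obtain ⟨x, hx, wx, nx⟩ := ex_perp2 S (by omega) (dl_ne S hw) (r n w)
  obtain ⟨y, hy, xy, wy, ny⟩ := ex_perp3 S (by omega) (dl_ne S hx) (dl_ne S hw) (or_symm S wx)
    (r n w)
  have H := hN x (dl_ne S hx) ⟨_, mul_mem hn (N2 g g1 _ (inv_mem hn)), fx x wx nx,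
    G.ncz (by omega) (dl_ne S hx) (fx x wx nx) (ne (dl_ne S hy)) xy (fx y wy ny) fun e =>
      nw (keep (h1 n) g3 g4 (by
        rw [← commutatorElement_eq_one_iff_commute, ← map_commutatorElement, ← e,
          commutatorElement_def]
        simp only [mul_assoc]))⟩
  intro a z a1 hz a2
  obtain ⟨u, hu, xu, zu⟩ := ex_perp2 S (by omega) (dl_ne S hx) z
  exact sp u z (dl_ne S hu) hz (or_symm S zu) (sp x u (dl_ne S hx) (dl_ne S hu) xu H) a a1 a2

end Vale.Agent.P011UD5
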